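import Vale.Agent.P256.MathlibUsed

namespace Vale.Agent.P256

/-- `p` is homogeneous, `p(e) > 0`, and for every real `x` all complex roots of
`t ↦ p(t e - x)` are real. -/
def IsHyperbolic {n : ℕ} (p : MvPolynomial (Fin n) ℝ) (e : Fin n → ℝ) : Prop :=
  (∃ d : ℕ, p.IsHomogeneous d) ∧ 0 < MvPolynomial.eval e p ∧
    ∀ (x : Fin n → ℝ) (t : ℂ),
      MvPolynomial.aeval (fun i => t * (e i : ℂ) - (x i : ℂ)) p = 0 → t.im = 0

/-- The closed hyperbolicity cone `K(p,e)`: every (real) root of `t ↦ p(t e - x)` is `≥ 0`. -/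
def hypCone {n : ℕ} (p : MvPolynomial (Fin n) ℝ) (e : Fin n → ℝ) : Set (Fin n → ℝ) :=
  {x | ∀ t : ℝ, MvPolynomial.eval (t • e - x) p = 0 → 0 ≤ t}

/-- Spectrahedral shadows in `ℝⁿ`. -/
def IsSpectrahedralShadow {n : ℕ} (S : Set (Fin n → ℝ)) : Prop :=
  ∃ (m a : ℕ) (A₀ : Matrix (Fin m) (Fin m) ℝ) (A : Fin n → Matrix (Fin m) (Fin m) ℝ)
    (B : Fin a → Matrix (Fin m) (Fin m) ℝ),
    A₀.IsSymm ∧ (∀ i, (A i).IsSymm) ∧ (∀ j, (B j).IsSymm) ∧
    S = {x | ∃ u : Fin a → ℝ, (A₀ + ∑ i, x i • A i + ∑ j, u j • B j).PosSemidef}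

/-- The polynomial `y ↦ p(z + y)`. -/
noncomputable def translate {n : ℕ} (p : MvPolynomial (Fin n) ℝ) (z : Fin n → ℝ) :
    MvPolynomial (Fin n) ℝ :=
  MvPolynomial.aeval (fun i => MvPolynomial.C (z i) + MvPolynomial.X i) p

/-- The localization of `p` at `z`: the lowest-degree nonzero homogeneous component of
`y ↦ p(z + y)`. -/
noncomputable def localization {n : ℕ} (p : MvPolynomial (Fin n) ℝ) (z : Fin n → ℝ) :
    MvPolynomial (Fin n) ℝ :=
  MvPolynomial.homogeneousComponent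
    (sInf {k : ℕ | MvPolynomial.homogeneousComponent k (translate p z) ≠ 0}) (translate p z)

/-- `v` is a smooth point of `q`: the gradient of `q` at `v` is nonzero. -/
def IsSmoothPoint {n : ℕ} (q : MvPolynomial (Fin n) ℝ) (v : Fin n → ℝ) : Prop :=
  ∃ i, MvPolynomial.eval v (MvPolynomial.pderiv i q) ≠ 0

end Vale.Agent.P256
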