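import Vale.Agent.P256.Defs

/-! Definitions for the final statement. -/

namespace Vale.Agent.P256

open Filter Topology

variable {n : ℕ}

/-- The multiplicity of `p` at `z`: the degree of the localization `p_z`. -/
noncomputable def multAt (p : MvPolynomial (Fin n) ℝ) (z : Fin n → ℝ) : ℕ :=
  sInf {k : ℕ | MvPolynomial.homogeneousComponent k (translate p z) ≠ 0}

/-- `v` is in the lineality space of `q`: `q` is constant on all lines of direction `v`. -/
def LinDir (q : MvPolynomial (Fin n) ℝ) (v : Fin n → ℝ) : Prop :=
  ∀ (x : Fin n → ℝ) (t : ℝ), MvPolynomial.eval (x + t • v) q = MvPolynomial.eval x q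

/-- `z` is an ordinary point: the localization `p_z` is smooth at all boundary points of its own
hyperbolicity cone off the line `ℝ z`. -/
def OrdinaryAt (p : MvPolynomial (Fin n) ℝ) (e z : Fin n → ℝ) : Prop :=
  ∀ v ∈ hypCone (localization p z) e, MvPolynomial.eval v (localization p z) = 0 →
    (∀ c : ℝ, v ≠ c • z) → IsSmoothPoint (localization p z) v

/-- `z` lies on a clean curved stratum. Here `L` is the lineality space of the localization
`p_z` and `m` the multiplicity of `p` at `z`. -/
structure CleanAt (p : MvPolynomial (Fin n) ℝ) (e z : Fin n → ℝ) : Prop where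
  /-- `p_z` is smooth at all boundary points of its hyperbolicity cone outside `L` -/
  smooth : ∀ v ∈ hypCone (localization p z) e, MvPolynomial.eval v (localization p z) = 0 →
    ¬ LinDir (localization p z) v → IsSmoothPoint (localization p z) v
  /-- `L` has codimension at least two -/
  codim : ∃ u w : Fin n → ℝ, ∀ a b : ℝ, LinDir (localization p z) (a • u + b • w) → a = 0 ∧ b = 0
  /-- the points of multiplicity `≥ m` near `z` project onto a neighbourhood of `z` in `z + L` -/
  equimultiple : ∀ U ∈ 𝓝 z, ∀ᶠ x in 𝓝 z, ∃ y ∈ U,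
    (∀ l, LinDir (localization p z) l → ∑ i, (y i - x i) * l i = 0) ∧ multAt p z ≤ multAt p y
  /-- curvature: the part of degree `2m` of `y ↦ p (z + y)` has no zero on `L` off `ℝ z` -/
  curved : ∀ v, LinDir (localization p z) v → (∀ c : ℝ, v ≠ c • z) →
    MvPolynomial.eval v (MvPolynomial.homogeneousComponent (2 * multAt p z) (translate p z)) ≠ 0
  /-- `z` lies on no face of dimension two or more of the cone -/
  extreme : ∀ y ∈ hypCone p e, (∀ c : ℝ, y ≠ c • z) → MvPolynomial.eval (z + y) p ≠ 0

/-- `q` is hyperbolic and has at most two variables, or its cone contains no line and each nonzero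
boundary point is ordinary or lies on a clean curved stratum. -/
def NiceCone (q : MvPolynomial (Fin n) ℝ) (e : Fin n → ℝ) : Prop :=
  IsHyperbolic q e ∧ (n ≤ 2 ∨ ((∀ x ∈ hypCone q e, -x ∈ hypCone q e → x = 0) ∧
    ∀ z ∈ hypCone q e, z ≠ 0 → MvPolynomial.eval z q = 0 → OrdinaryAt q e z ∨ CleanAt q e z))

/-- finite intersections of preimages, under linear maps `A`, of the cones `hypCone q (A e)` of
nice polynomials `q` -/
inductive InterNice (e : Fin n → ℝ) : Set (Fin n → ℝ) → Prop
  | univ : InterNice e Set.univ
  | inter {S : Set (Fin n → ℝ)} {k : ℕ} (A : (Fin n → ℝ) →ₗ[ℝ] (Fin k → ℝ))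
      (q : MvPolynomial (Fin k) ℝ) : NiceCone q (A e) → InterNice e S →
      InterNice e (S ∩ A ⁻¹' hypCone q (A e))

end Vale.Agent.P256
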