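import Mathlib.Algebra.AffineMonoid.UniqueSums
import Mathlib.Algebra.Group.Pointwise.Set.Small
import Mathlib.Algebra.Group.Translate
import Mathlib.Algebra.Module.StablyFree.Basic
import Mathlib.Algebra.Module.Torsion.Prod
import Mathlib.Algebra.MvPolynomial.Expand
import Mathlib.Algebra.MvPolynomial.Funext
import Mathlib.Algebra.Order.Archimedean.Real.Hom
import Mathlib.Algebra.Polynomial.Smeval
import Mathlib.Algebra.Ring.IsFormallyReal
import Mathlib.Analysis.Calculus.LocalExtr.Polynomial
import Mathlib.Analysis.Complex.Polynomial.Basic
import Mathlib.Analysis.Matrix.Order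
import Mathlib.Analysis.Polynomial.Basic
import Mathlib.Data.Int.Star
import Mathlib.LinearAlgebra.Lagrange
import Mathlib.LinearAlgebra.Matrix.FiniteDimensional
import Mathlib.LinearAlgebra.Matrix.GeneralLinearGroup.FinTwo
import Mathlib.Order.CompletePartialOrder
import Mathlib.RingTheory.Etale.Weakly
import Mathlib.RingTheory.Flat.TorsionFree
import Mathlib.RingTheory.MvPolynomial.EulerIdentity
import Mathlib.RingTheory.MvPolynomial.IrreducibleQuadratic
import Mathlib.RingTheory.SimpleRing.Principal
import Mathlib.RingTheory.TotallySplit
import Mathlib.Tactic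
import Mathlib.Topology.Algebra.MvPolynomial
import Mathlib.Topology.Compactness.DeltaGeneratedSpace

/-! The part of Mathlib that the development of this folder uses. -/
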